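import Vale.Agent.P286.H103.ZaJ

/-!
# The value of the middle family at the point
-/

namespace Vale.Agent.P286.H56

open CategoryTheory TensorProduct Vale.Agent.P286.Gen Vale.Agent.P286.H295 Vale.Agent.P286.H389
  Vale.Agent.P286.H761 Vale.Agent.P286.H847 Vale.Agent.P286.H652

noncomputable section

section Surj

variable {A : Type} [CommRing A] [Algebra ℂ A] (hA : Function.Surjective (algebraMap ℂ A))

include hA

theorem lin_surj {V V' : Type} [AddCommGroup V] [Module ℂ V] [Module A V] [IsScalarTower ℂ A V]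
    [AddCommGroup V'] [Module ℂ V'] [Module A V'] [IsScalarTower ℂ A V'] (u : V →ₗ[ℂ] V')
    (a : A) (x : V) : u (a • x) = a • u x := by
  obtain ⟨c, rfl⟩ := hA a
  rw [algebraMap_smul, algebraMap_smul, map_smul]

theorem tt_surj {V : Type} [AddCommGroup V] [Module ℂ V] [Module A V] [IsScalarTower ℂ A V]
    (a : A) (x : A ⊗[ℂ] V) : tt A V a x = 0 := by
  obtain ⟨c, rfl⟩ := hA a
  induction x using TensorProduct.induction_on with
  | zero => exact map_zero _
  | tmul b x =>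
    rw [tt_apply, rt_tmul, lf_tmul, algebraMap_smul, ← Algebra.smul_def, tmul_smul, smul_tmul',
      sub_self]
  | add x y hx hy => rw [map_add, hx, hy, add_zero]

theorem Fj_surj (V : Type) [AddCommGroup V] [Module ℂ V] [Module A V] [IsScalarTower ℂ A V]
    (n : ℕ) {x : A ⊗[ℂ] V} (hx : x ∈ Fj A V (n + 1)) : x = 0 :=
  Fj_le (u := LinearMap.id) (G := ⊥) (fun a y _ => tt_surj hA a y) x hx

theorem ev_inj {V : Type} [AddCommGroup V] [Module ℂ V] [Module A V] [IsScalarTower ℂ A V]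
    (x : J A V) : Cmp.of (FJ A V) (1 ⊗ₜ[ℂ] J.ev x) = x := by
  induction x using Cmp.ind with
  | h z =>
    have e : (z.1 1 : A ⊗[ℂ] V) = 1 ⊗ₜ[ℂ] J.ev (Cmp.mk (FJ A V) z) := by
      refine sub_eq_zero.1 (Fj_surj hA V 0 ?_)
      exact J.sub_evl_mem (z.1 1)
    rw [← e]
    refine (Cmp.mk_eq _ _).2 fun n => ?_
    change (z.1 1 : A ⊗[ℂ] V) - z.1 n ∈ Fj A V n
    rcases n with _ | n
    · exact Submodule.mem_top
    · have h1 := Cmp.cau z (n := 1) (m := n + 1) (by omega)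
      have h2 : (z.1 (n + 1) - z.1 1 : A ⊗[ℂ] V) = 0 := Fj_surj hA V 0 h1
      rw [← neg_sub, h2, neg_zero]
      exact zero_mem _

/-- The value on the diagonal, as a morphism. -/
def evG (M : AGD A) : GD.Hom (JG M) M.toGD where
  f := J.ev
  comm x := J.ev_map M.d (lin_surj hA M.d) x
  deg _ _ hx := JG.ev_gr hx

/-- The inverse of the value. -/
def coG (M : AGD A) : GD.Hom M.toGD (JG M) where
  f := Cmp.of (FJ A M.V) ∘ₗ TensorProduct.mk ℂ A M.V 1
  comm x := (lift_of (M.d.lTensor A) M.dO (1 ⊗ₜ[ℂ] x)).symm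
  deg _ _ hx := of_clo (tmul_lG 1 hx)

omit hA in
theorem evG_coG' (M : AGD A) (x : M.V) : J.ev ((coG M).f x) = x := by
  change J.ev (Cmp.of (FJ A M.V) (1 ⊗ₜ[ℂ] x)) = x
  rw [J.ev_of, J.evl_tmul, one_smul]

theorem evG_coG (M : AGD A) (x : M.V) : (evG hA M).f ((coG M).f x) = x := evG_coG' M x

theorem coG_evG (M : AGD A) (x : (JG M).V) : (coG M).f ((evG hA M).f x) = x := ev_inj hA x

/-- Over the base field the value is a quasi-isomorphism. -/
theorem qis_evG (M : AGD A) : GD.Qis (evG hA M) :=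
  qis_of_inv (evG hA M) (coG M) (coG_evG hA M) (evG_coG hA M)

end Surj

/-! ### The point -/

variable {N : ℕ} {Γ : Gps N} [hs : Algebra.Smooth ℂ (Of Γ)]

omit hs in
theorem surj_pt : Function.Surjective (algebraMap ℂ (BPt Γ).A.R) := fun a => ⟨a, rfl⟩

variable (F : BFam Γ)

/-- The retraction of the middle family at the point. -/
def rB : GD.Hom ((mid F).F (BPt Γ)) (F.M (BPt Γ)).toGD :=
  CS.fromZero (X := (midCS F).at' (BPt Γ)) (Y := (F.M (BPt Γ)).toGD)
    ((show GD.Hom (uMod F (uA (BPt Γ) 0)).toGD (F.M (BPt Γ)).toGD from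
      F.t (foldU (BPt Γ))).comp (evG surj_pt (uMod F (uA (BPt Γ) 0))))

theorem rB_apply (x : ((mid F).F (BPt Γ)).V) :
    (rB F).f x = (F.t (foldU (BPt Γ))).f
      ((evG surj_pt (uMod F (uA (BPt Γ) 0))).f (x 0)) := rfl

theorem rB_midAug (x : (JG (F.M (BPt Γ))).V) :
    (rB F).f (((midAug F).tot.f (BPt Γ)).f x) = J.ev x := by
  have e1 := J.ev_pull (𝟙 (BPt Γ) : BPt Γ ⟶ BPt Γ).f (gT F (inl (BPt Γ)) (inl (BPt Γ))).f
    (gT_sl F (χ := 𝟙 (BPt Γ)) (ι := inl (BPt Γ)) (Category.id_comp _).symm) x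
  have e2 : (F.t (foldU (BPt Γ))).f ((F.t (inl (BPt Γ))).f (J.ev x)) = J.ev x := by
    rw [← F.comp, inl_foldU, F.id]
  exact (congrArg (F.t (foldU (BPt Γ))).f e1).trans e2

/-- **The retraction is a quasi-isomorphism.** -/
theorem qis_rB : GD.Qis (rB F) := by
  refine GD.Qis.of_comp_right (u := (midAug F).tot.f (BPt Γ)) (qis_midAug F (BPt Γ)) ?_
  exact qis_congr (fun x => (rB_midAug F x).symm) (qis_evG surj_pt (F.M (BPt Γ)))

variable {F} {Θ : H103.PFam Γ} (Z : H103.ZData Θ F)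

/-- The map at the point defined by the levels. -/
def ptG : GD.Hom (Θ.M (BPt Γ)).toGD (F.M (BPt Γ)).toGD where
  f := (F.t (foldU (BPt Γ))).f ∘ₗ Z.q (BPt Γ) 0
  comm x := by
    refine (congrArg (F.t (foldU (BPt Γ))).f (Z.d0 (BPt Γ) x)).trans ?_
    exact (F.t (foldU (BPt Γ))).comm _
  deg m x hx := by
    have h := Z.deg (BPt Γ) 0 m x hx
    rw [Nat.cast_zero, sub_zero] at h
    exact (F.t (foldU (BPt Γ))).deg m _ h

theorem ptG_apply (x : (Θ.M (BPt Γ)).V) :
    (ptG Z).f x = (F.t (foldU (BPt Γ))).f (Z.q (BPt Γ) 0 x) := rfl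

/-- The triangle at the point. -/
theorem rB_hom (x : (JG (Θ.M (BPt Γ))).V) :
    (rB F).f ((Z.hom.f (BPt Γ)).f x) = (ptG Z).f (J.ev x) := by
  have e1 : J.ev (Z.qJ (BPt Γ) 0 x) = Z.q (BPt Γ) 0 (J.ev x) :=
    J.ev_map (Z.q (BPt Γ) 0) (Z.lin (BPt Γ) 0) x
  exact congrArg (F.t (foldU (BPt Γ))).f e1

/-- **The morphism to the middle family is a quasi-isomorphism at the point** if the map
defined by the levels is. -/
theorem qis_hom_pt (h : GD.Qis (ptG Z)) : GD.Qis (Z.hom.f (BPt Γ)) := by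
  refine GD.Qis.of_comp_left (v := rB F) (qis_rB F) ?_
  exact qis_congr (u := (ptG Z).comp (evG surj_pt (Θ.M (BPt Γ))))
    (fun x => (rB_hom Z x).symm) (h.comp (qis_evG surj_pt (Θ.M (BPt Γ))))

end

end Vale.Agent.P286.H56
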