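import Vale.Agent.P286.H56.TriC
import Vale.Agent.P286.H56.TriPt
import Vale.Agent.P286.H103.ZaX

/-!
# The morphism from `Theta(Xi F)` to the middle family at the point
-/

namespace Vale.Agent.P286.H56

open CategoryTheory TensorProduct Vale.Agent.P286.Gen Vale.Agent.P286.H295 Vale.Agent.P286.H389
  Vale.Agent.P286.H761 Vale.Agent.P286.H847 Vale.Agent.P286.H847.SGD Vale.Agent.P286.H652
  Vale.Agent.P286.H64 Vale.Agent.P286.H697 Vale.Agent.P286.H710 Vale.Agent.P286.H987
  Vale.Agent.P286.H867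

noncomputable section

variable {N : ℕ} {Γ : Gps N} {I : Type} [Fintype I] [DecidableEq I]

/-- The augmentation of the values at the point. -/
def eW (M : GD) : GD.Hom (tens (WK I 0) M) M := (ctrW I 0).tensEps M

theorem eW_qis (M : GD) : GD.Qis (eW (I := I) M) := (ctrW I 0).tensEps_qis M

theorem eW_f (M : GD) (z : Wk I 0 ⊗[ℂ] M.V) : (eW (I := I) M).f z = epL (ep0 I) M.V z := by
  induction z using TensorProduct.induction_on with
  | zero => exact (map_zero _).trans (map_zero _).symm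
  | tmul w x => exact (((ctrW I 0).epsT_tmul M w x)).trans (epL_tmul (ep0 I) w x).symm
  | add a b ha hb => exact (map_add _ a b).trans ((congrArg₂ (· + ·) ha hb).trans (map_add _ a b).symm)

variable [hs : Algebra.Smooth ℂ (Of Γ)] (R : Rpn Γ I) (n : ℕ) (F : OmF (BGT Γ))

omit hs in
theorem xp_gau : H103.IsGau (xp n R).G₀ R := fun _ _ _ _ => rfl

/-- The triangle at the point, for the morphism of families. -/
theorem triZ (hG : GSl (xp n R).G₀) (H : H459.GauT (xp n R).G₀ (yop I 0 n))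
    (x : (JG (thA (yop I 0 n) ((gauX n R).Xi F) (BPt Γ).A.R)).V) :
    (eW (I := I) (fib F (BPt Γ)).M).f ((rB (wB hG F)).f
      (((H103.zA (xp n R) F (xp_gau R n) hG H).f (BPt Γ)).f x)) =
      ((gauX n R).pi F).f ((epsPt (ctrW I n) Γ ((gauX n R).Xi F)).f x) := by
  have e1 := rB_hom (H103.zdata (xp n R) F (xp_gau R n) hG H) x
  refine (congrArg (eW (I := I) (fib F (BPt Γ)).M).f e1).trans ?_
  refine (eW_f (fib F (BPt Γ)).M _).trans ?_
  exact (tri0 R n F (evTh (yop I 0 n) ((gauX n R).Xi F) x)).trans (congrArg ((gauX n R).pi F).f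
    (epsPt_f (ctrW I n) ((gauX n R).Xi F) x).symm)

/-- **The morphism is a quasi-isomorphism at the point.** -/
theorem zA_pt (hG : GSl (xp n R).G₀) (H : H459.GauT (xp n R).G₀ (yop I 0 n))
    (hpi : GD.Qis ((gauX n R).pi F)) :
    GD.Qis ((H103.zA (xp n R) F (xp_gau R n) hG H).f (BPt Γ)) := by
  refine GD.Qis.of_comp_left (v := (eW (I := I) (fib F (BPt Γ)).M).comp (rB (wB hG F)))
    ((eW_qis (fib F (BPt Γ)).M).comp (qis_rB (wB hG F))) ?_
  exact H652.qis_congr (u := ((gauX n R).pi F).comp (epsPt (ctrW I n) Γ ((gauX n R).Xi F)))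
    (fun x => (triZ R n F hG H x).symm) (hpi.comp (epsPt_qis (ctrW I n) ((gauX n R).Xi F)))

end

end Vale.Agent.P286.H56
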