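import Vale.Agent.P286.H56.Rho
import Vale.Agent.P286.H103.ZaQ
import Vale.Agent.P286.H459.CstN

/-!
# The product maps of the levels and cochains
-/

namespace Vale.Agent.P286.H56

open CategoryTheory TensorProduct Vale.Agent.P286.Gen Vale.Agent.P286.H295 Vale.Agent.P286.H847
  Vale.Agent.P286.H847.SGD Vale.Agent.P286.H64 Vale.Agent.P286.H697
  Vale.Agent.P286.H761 Vale.Agent.P286.H710

noncomputable section

section Gen

variable {W : Type} [Ring W] [Algebra ℂ W] (a : H103.Dga W) {A B : Type} [CommRing A] [Algebra ℂ A]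
  [CommRing B] [Algebra ℂ B] (f : A →ₐ[ℂ] B) {M M' : OmM B}
  {N N' : Type} [AddCommGroup N] [Module ℂ N] [AddCommGroup N'] [Module ℂ N']

/-- The operator `sg^p ⊗ κ`. -/
def tcd {V V' : Type} [AddCommGroup V] [Module ℂ V] [AddCommGroup V'] [Module ℂ V'] (p : ℤ)
    (κ : V →ₗ[ℂ] V') : W ⊗[ℂ] V →ₗ[ℂ] W ⊗[ℂ] V' :=
  TensorProduct.map (a.sgz p).toLinearMap κ

theorem tcd_tmul {V V' : Type} [AddCommGroup V] [Module ℂ V] [AddCommGroup V'] [Module ℂ V']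
    (p : ℤ) (κ : V →ₗ[ℂ] V') (w : W) (x : V) :
    tcd a p κ (w ⊗ₜ[ℂ] x) = a.sgz p w ⊗ₜ[ℂ] κ x := rfl

theorem tcd_lw (p : ℤ) (κ : M.M.V →ₗ[ℂ] M'.M.V) (w : W) (z : W ⊗[ℂ] M.M.V) :
    tcd a p κ (H103.lw M w z) = H103.lw M' (a.sgz p w) (tcd a p κ z) := by
  induction z using TensorProduct.induction_on with
  | zero => rw [map_zero, map_zero, map_zero]
  | tmul v x => rw [H103.lw_tmul, tcd_tmul, tcd_tmul, H103.lw_tmul, map_mul]
  | add x y hx hy => rw [map_add, map_add, map_add, map_add, hx, hy]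

theorem sgz_pe (p : ℤ) (w : Om ℂ B) : H697.Om.sgz p (H103.pe B w) = H103.pe B w := by
  by_cases h : Even p
  · rw [Om.sgz_even h]
  · rw [Om.sgz_odd h, H103.sg_pe]

theorem pe_sgz (p : ℤ) (w : Om ℂ B) : H103.pe B (H697.Om.sgz p w) = H103.pe B w := by
  by_cases h : Even p
  · rw [Om.sgz_even h]
  · rw [Om.sgz_odd h, H103.pe_sg]

theorem po_sgz (p : ℤ) (w : Om ℂ B) :
    H103.po B (H697.Om.sgz p w) = H697.Om.sgz p (H103.po B w) := by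
  by_cases h : Even p
  · rw [Om.sgz_even h, Om.sgz_even h]
  · rw [Om.sgz_odd h, Om.sgz_odd h, H103.po_sg, H103.sg_po]

theorem tcd_ro (p : ℤ) (κ : M.M.V →ₗ[ℂ] M'.M.V)
    (hκ : ∀ (w : Om ℂ B) (x : M.M.V), κ (w • x) = H697.Om.sgz p w • κ x)
    (w : Om ℂ B) (z : W ⊗[ℂ] M.M.V) :
    tcd a p κ (H103.ro a M w z) = H103.ro a M' (H697.Om.sgz p w) (tcd a p κ z) := by
  induction z using TensorProduct.induction_on with
  | zero => rw [map_zero, map_zero, map_zero]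
  | tmul v x =>
    rw [H103.ro_tmul, map_add, tcd_tmul, tcd_tmul, tcd_tmul, H103.ro_tmul, hκ, hκ, sgz_pe, pe_sgz,
      po_sgz, a.sgz_sg, a.sg_sgz]
  | add x y hx hy => rw [map_add, map_add, map_add, map_add, hx, hy]

/-- **The product map and cochains.** -/
theorem zq_coch (n p : ℤ) (κ : M.M.V →ₗ[ℂ] M'.M.V)
    (hκ : ∀ (w : Om ℂ B) (x : M.M.V), κ (w • x) = H697.Om.sgz p w • κ x)
    (ρ : N →ₗ[ℂ] W ⊗[ℂ] M.M.V) (ρ' : N' →ₗ[ℂ] W ⊗[ℂ] M'.M.V) (u : N →ₗ[ℂ] N') (σ : ℂ)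
    (hρ : ∀ v, ρ' (u v) = σ • tcd a p κ (ρ v)) {sW : W →ₗ[ℂ] W} (hW : ∀ w, sW w = a.sgz p w)
    {sO : Om ℂ A →ₗ[ℂ] Om ℂ A} (hO : ∀ w, sO w = H697.Om.sgz p w)
    (z : W ⊗[ℂ] (Om ℂ A ⊗[ℂ] N)) :
    H103.zq a f M' n ρ' (TensorProduct.map sW (TensorProduct.map sO u) z) =
      σ • tcd a p κ (H103.zq a f M n ρ z) := by
  refine H103.src_ext (p := H103.zq a f M' n ρ' ∘ₗ TensorProduct.map sW (TensorProduct.map sO u))
    (q := σ • (tcd a p κ ∘ₗ H103.zq a f M n ρ)) (fun w o v => ?_) z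
  change H103.zq a f M' n ρ' (sW w ⊗ₜ[ℂ] (sO o ⊗ₜ[ℂ] u v)) =
    σ • tcd a p κ (H103.zq a f M n ρ (w ⊗ₜ[ℂ] (o ⊗ₜ[ℂ] v)))
  rw [H103.zq_tmul, H103.zq_tmul, hW, hO, hρ, tcd_lw, tcd_ro a p κ hκ, map_smul, map_smul,
    a.sgz_sgz, a.sgz_sgz, H697.Om.pb_sgz, H697.Om.sgz_sgz, H697.Om.sgz_sgz, add_comm n p]

end Gen

section Wk

variable {I : Type} [Fintype I] [DecidableEq I] {n : ℕ}

theorem sgz_dga (p : ℤ) (w : Wk I n) : (dga I n).sgz p w = H761.sgp (WK I n) p w := by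
  by_cases h : Even p
  · rw [(dga I n).sgz_even h, H761.sgp_even h]
  · rw [(dga I n).sgz_odd h, H761.sgp_odd h]
    rfl

theorem sgz_dga' (p : ℤ) (w : Wk I n) : H64.sgp (WK I n) p w = (dga I n).sgz p w := by
  by_cases h : Even p
  · rw [(dga I n).sgz_even h, H64.sgp_even _ h]
  · rw [(dga I n).sgz_odd h, H64.sgp_odd _ h]
    rfl

theorem tcd_eq (p : ℤ) {V V' : GD} (κ : V.V →ₗ[ℂ] V'.V) :
    tcd (dga I n) p κ = tco (WK I n) p κ := by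
  refine TensorProduct.ext' fun w x => ?_
  exact congrArg (· ⊗ₜ[ℂ] κ x) (sgz_dga p w)

theorem smap_eq (p : ℤ) {V V' : GD} (κ : V.V →ₗ[ℂ] V'.V) :
    LM.smap (WK I n) p κ = tco (WK I n) p κ := by
  refine TensorProduct.ext' fun w x => ?_
  exact congrArg (· ⊗ₜ[ℂ] κ x) ((sgz_dga' p w).trans (sgz_dga p w))

end Wk

namespace XP

variable {N : ℕ} {Γ : Gps N} {I : Type} [Fintype I] [DecidableEq I] {n : ℕ} (P : XP Γ I n)
  [hs : Algebra.Smooth ℂ (Of Γ)]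

/-- **The product map of the level `k` and cochains.** -/
theorem zq_rho {F F' : OmF (BGT Γ)} {p : ℤ} (c : OmF.Coch F F' p) (A : Gen.BGObj Γ) (k : ℕ)
    {A' : Type} [CommRing A'] [Algebra ℂ A'] (f : A' →ₐ[ℂ] ((undS A).P k).A.R)
    (z : Wk I 0 ⊗[ℂ] (Om ℂ A' ⊗[ℂ] (P.G.Xi F).V)) :
    H103.zq (dga I 0) f (F'.F ((undS A).P k)) k (P.rho F' A k)
        (LM.smap (WK I 0) p (M := tens (OmS A') (P.G.Xi F).toGD)
          (N := tens (OmS A') (P.G.Xi F').toGD) (LM.smap (OmS A') p (P.G.xi c).f) z) =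
      sz p ^ k • tco (WK I 0) p (c.f ((undS A).P k))
        (H103.zq (dga I 0) f (F.F ((undS A).P k)) k (P.rho F A k) z) := by
  rw [← tcd_eq]
  refine zq_coch (dga I 0) f k p (c.f ((undS A).P k)) (c.smul ((undS A).P k)) (P.rho F A k)
    (P.rho F' A k) (P.G.xi c).f (sz p ^ k) (fun v => ?_) (sW := H64.sgp (WK I 0) p)
    (fun w => sgz_dga' p w) (sO := H64.sgp (OmS A') p) (fun w => H459.sgp_OmS p w) z
  rw [tcd_eq]
  exact P.rho_xi F A c k v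

end XP

end

end Vale.Agent.P286.H56
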