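import Vale.Agent.P286.H56.XpI
import Vale.Agent.P286.H56.ZqC
import Vale.Agent.P286.H761.Gx

/-!
# The pair of gauge functors of the Weil algebras
-/

namespace Vale.Agent.P286.H56

open CategoryTheory TensorProduct Vale.Agent.P286.Gen Vale.Agent.P286.H295 Vale.Agent.P286.H847
  Vale.Agent.P286.H847.GD Vale.Agent.P286.H847.SGD Vale.Agent.P286.H64 Vale.Agent.P286.H697
  Vale.Agent.P286.H761 Vale.Agent.P286.H710 Vale.Agent.P286.H987

noncomputable section

variable {N : ℕ} {Γ : Gps N} {I : Type} [Fintype I] [DecidableEq I]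

/-- The gauge functors with and without the generators `ξ`. -/
def xp (n : ℕ) (R : Rpn Γ I) : XP Γ I n where
  G := gauX n R
  G₀ := gauX 0 R
  e _ := rfl
  x0 F X Y φ z := x0_G (M := fib F X) (M' := fib F Y) (fibt F φ).f (R.r (Gen.BGHom.h φ))
    (R.r (Gen.BGHom.h φ)⁻¹) z
  y F X Y φ t z := G_y0 (M := fib F X) (M' := fib F Y) (fibt F φ).f (R.mul_inv _) t z

theorem xp_G (n : ℕ) (R : Rpn Γ I) : (xp n R).G = gauX n R := rfl

theorem xp_G₀ (n : ℕ) (R : Rpn Γ I) : (xp n R).G₀ = gauX 0 R := rfl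

end

end Vale.Agent.P286.H56
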