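import Vale.Agent.P286.H56.Xi1
import Vale.Agent.P286.H761.Xi

/-!
# The level maps `Wk ⊗ F(P_k) → W ⊗ F(A ⊔ P_k)`
-/

namespace Vale.Agent.P286.H56

open CategoryTheory TensorProduct Vale.Agent.P286.Gen Vale.Agent.P286.H295 Vale.Agent.P286.H847
  Vale.Agent.P286.H847.GD Vale.Agent.P286.H847.SGD Vale.Agent.P286.H64 Vale.Agent.P286.H697
  Vale.Agent.P286.H761

noncomputable section

variable {N : ℕ}

/-- The gauge functors with and without the generators `ξ`. -/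
structure XP (Γ : Gps N) (I : Type) [Fintype I] [DecidableEq I] (n : ℕ) : Type 1 where
  G : GauX Γ (WK I n) n
  G₀ : GauX Γ (WK I 0) 0
  e : ∀ i, G.e i = Wk.e I n i
  x0 : ∀ (F : OmF (BGT Γ)) {X Y : Gen.BGObj Γ} (φ : X ⟶ Y) (z : Wk I n ⊗[ℂ] (F.F X).M.V),
    x0 I n (F.F Y).M.V ((G.map F φ).f z) = (G₀.map F φ).f (x0 I n (F.F X).M.V z)
  y : ∀ (F : OmF (BGT Γ)) {X Y : Gen.BGObj Γ} (φ : X ⟶ Y) (t : ℕ)
    (z : Wk I 0 ⊗[ℂ] (F.F X).M.V), (G₀.map F φ).f (H103.lw (F.F X) (y0 I t) z) =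
      H103.lw (F.F Y) (y0 I t) ((G₀.map F φ).f z)

namespace XP

variable {Γ : Gps N} {I : Type} [Fintype I] [DecidableEq I] {n : ℕ} (P : XP Γ I n)
  (F : OmF (BGT Γ))

/-- The map `ξ ↦ 0` followed by the gauge transition map. -/
def gx {X Y : Gen.BGObj Γ} (φ : X ⟶ Y) :
    Wk I n ⊗[ℂ] (F.F X).M.V →ₗ[ℂ] Wk I 0 ⊗[ℂ] (F.F Y).M.V :=
  (P.G₀.map F φ).f ∘ₗ H56.x0 I n (F.F X).M.V

theorem gx_apply {X Y : Gen.BGObj Γ} (φ : X ⟶ Y) (z : Wk I n ⊗[ℂ] (F.F X).M.V) :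
    P.gx F φ z = (P.G₀.map F φ).f (H56.x0 I n (F.F X).M.V z) := rfl

theorem gx_apply' {X Y : Gen.BGObj Γ} (φ : X ⟶ Y) (z : Wk I n ⊗[ℂ] (F.F X).M.V) :
    P.gx F φ z = H56.x0 I n (F.F Y).M.V ((P.G.map F φ).f z) := (P.x0 F φ z).symm

/-- Functoriality. -/
theorem gx_map {X Y Z : Gen.BGObj Γ} (φ : X ⟶ Y) (ψ : Y ⟶ Z)
    (z : Wk I n ⊗[ℂ] (F.F X).M.V) :
    P.gx F ψ ((P.G.map F φ).f z) = P.gx F (φ ≫ ψ) z := by
  rw [gx_apply', gx_apply', P.G.map_comp]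

theorem map_gx {X Y Z : Gen.BGObj Γ} (φ : X ⟶ Y) (ψ : Y ⟶ Z)
    (z : Wk I n ⊗[ℂ] (F.F X).M.V) :
    (P.G₀.map F ψ).f (P.gx F φ z) = P.gx F (φ ≫ ψ) z := by
  rw [gx_apply, gx_apply, P.G₀.map_comp]

theorem gx_sq {X Y Y' Z : Gen.BGObj Γ} {φ : X ⟶ Y} {ψ : Y ⟶ Z} {φ' : X ⟶ Y'} {ψ' : Y' ⟶ Z}
    (h : φ ≫ ψ = φ' ≫ ψ') (z : Wk I n ⊗[ℂ] (F.F X).M.V) :
    P.gx F ψ ((P.G.map F φ).f z) = (P.G₀.map F ψ').f (P.gx F φ' z) := by
  rw [gx_map, map_gx, h]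

/-- The chain rule. -/
theorem gx_tD {X Y : Gen.BGObj Γ} (φ : X ⟶ Y) (z : Wk I n ⊗[ℂ] (F.F X).M.V) :
    P.gx F φ (H103.tD (dga I n) (F.F X) z) = H103.tD (dga I 0) (F.F Y) (P.gx F φ z) +
      ∑ t : Fin n, H103.lw (F.F Y) (y0 I t) (P.gx F φ (eV I n (F.F X).M.V t z)) := by
  rw [gx_apply, x0_tD, map_add, map_sum]
  refine congrArg₂ (· + ·) ((P.G₀.map F φ).comm _) (Finset.sum_congr rfl fun t _ => ?_)
  exact P.y F φ t _

theorem gx_gr {X Y : Gen.BGObj Γ} (φ : X ⟶ Y) {m : ℤ} {z : Wk I n ⊗[ℂ] (F.F X).M.V}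
    (hz : z ∈ tgr (WK I n).toGD (F.F X).M m) :
    P.gx F φ z ∈ tgr (WK I 0).toGD (F.F Y).M m :=
  (P.G₀.map F φ).deg m _ (x0_gr (F.F X).M hz)

theorem x0_tco {V V' : GD} (p : ℤ) (f : V.V →ₗ[ℂ] V'.V) (z : Wk I n ⊗[ℂ] V.V) :
    H56.x0 I n V'.V (tco (WK I n) p f z) = tco (WK I 0) p f (H56.x0 I n V.V z) := by
  by_cases hp : Even p
  · have e : ∀ k, tco (WK I k) p f = TensorProduct.map LinearMap.id f := fun k => by
      rw [tco, sgp, if_pos hp]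
    rw [e, e]
    exact x0_id f z
  · have e : ∀ k, tco (WK I k) p f = TensorProduct.map (Wk.sg I k) f := fun k => by
      rw [tco, sgp, if_neg hp]
    rw [e, e]
    exact x0_sg f z

/-- Cochains. -/
theorem gx_tco {F' : OmF (BGT Γ)} {p : ℤ} (c : OmF.Coch F F' p) {X Y : Gen.BGObj Γ} (φ : X ⟶ Y)
    (z : Wk I n ⊗[ℂ] (F.F X).M.V) :
    P.gx F' φ (tco (WK I n) p (c.f X) z) = tco (WK I 0) p (c.f Y) (P.gx F φ z) := by
  rw [gx_apply, gx_apply, P.G₀.map_co, x0_tco]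

/-! ### The powers of the point -/

variable [hs : Algebra.Smooth ℂ (Of Γ)] (A : Gen.BGObj Γ)

/-- The map `v ↦ G_(j_k) (v_k)|ξ=0`. -/
def rho (k : ℕ) : (P.G.Xi F).V →ₗ[ℂ] Wk I 0 ⊗[ℂ] (F.F ((undS A).P k)).M.V :=
  P.gx F ((jS A).P k) ∘ₗ (LinearMap.proj k :
    (∀ k, Wk I n ⊗[ℂ] (F.F ((ptS Γ).P k)).M.V) →ₗ[ℂ] Wk I n ⊗[ℂ] (F.F ((ptS Γ).P k)).M.V)

theorem rho_apply (k : ℕ) (v : (P.G.Xi F).V) :
    P.rho F A k v = P.gx F ((jS A).P k) (v k) := rfl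

/-- The alternating sum of the faces after the map of the previous level. -/
def rdl : ∀ k : ℕ, (P.G.Xi F).V →ₗ[ℂ] Wk I 0 ⊗[ℂ] (F.F ((undS A).P k)).M.V
  | 0 => 0
  | (k + 1) => ((P.G₀.wk F).cs (undS A).co).dl k ∘ₗ P.rho F A k

theorem rdl_zero (v : (P.G.Xi F).V) : P.rdl F A 0 v = 0 := rfl

theorem rdl_succ (k : ℕ) (v : (P.G.Xi F).V) :
    P.rdl F A (k + 1) v = ((P.G₀.wk F).cs (undS A).co).dl k (P.rho F A k v) := rfl

/-- The bookkeeping of the chain rule. -/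
theorem D_aux {X Y : Gen.BGObj Γ} (φ : X ⟶ Y) (c : ℂ) (z : Wk I n ⊗[ℂ] (F.F X).M.V)
    (w r : Wk I 0 ⊗[ℂ] (F.F Y).M.V) (e : Fin n → Wk I 0 ⊗[ℂ] (F.F Y).M.V)
    (hw : w = c • P.gx F φ (H103.tD (dga I n) (F.F X) z) + r)
    (he : ∀ i, e i = c • P.gx F φ (eV I n (F.F X).M.V i z)) :
    w - ∑ i : Fin n, H103.lw (F.F Y) (y0 I i) (e i) =
      c • H103.tD (dga I 0) (F.F Y) (P.gx F φ z) + r := by
  have h : ∑ i : Fin n, H103.lw (F.F Y) (y0 I i) (e i) =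
      c • ∑ i : Fin n, H103.lw (F.F Y) (y0 I i) (P.gx F φ (eV I n (F.F X).M.V i z)) := by
    rw [Finset.smul_sum]
    exact Finset.sum_congr rfl fun i _ => by rw [he, map_smul]
  rw [hw, h, gx_tD, smul_add]
  abel

/-- The bookkeeping of the faces. -/
theorem dl_aux {X X' Y Y' : Gen.BGObj Γ} (s : Finset ℕ) (fc : ℕ → (X ⟶ X')) (fc' : ℕ → (Y ⟶ Y'))
    (φ : X ⟶ Y) (ψ : X' ⟶ Y') (h : ∀ i ∈ s, fc i ≫ ψ = φ ≫ fc' i)
    (x : Wk I n ⊗[ℂ] (F.F X).M.V) :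
    P.gx F ψ (∑ i ∈ s, (-1 : ℂ) ^ i • (P.G.map F (fc i)).f x) =
      ∑ i ∈ s, (-1 : ℂ) ^ i • (P.G₀.map F (fc' i)).f (P.gx F φ x) := by
  rw [map_sum]
  refine Finset.sum_congr rfl fun i hi => ?_
  rw [map_smul]
  exact congrArg (((-1 : ℂ) ^ i) • ·) (P.gx_sq F (h i hi) x)

theorem gx_dl (k : ℕ) (x : Wk I n ⊗[ℂ] (F.F ((ptS Γ).P k)).M.V) :
    P.gx F ((jS A).P (k + 1)) (((P.G.wk F).cs (ptS Γ).co).dl k x) =
      ((P.G₀.wk F).cs (undS A).co).dl k (P.gx F ((jS A).P k) x) := by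
  have e1 := CS.dl_apply ((P.G.wk F).cs (ptS Γ).co) k x
  have e2 := CS.dl_apply ((P.G₀.wk F).cs (undS A).co) k (P.gx F ((jS A).P k) x)
  refine (congrArg (P.gx F ((jS A).P (k + 1))) e1).trans (Eq.trans ?_ e2.symm)
  exact P.dl_aux F (Finset.range (k + 2)) ((ptS Γ).fc k) ((undS A).fc k) ((jS A).P k)
    ((jS A).P (k + 1)) (fun i hi => (jS A).face k i (by rw [Finset.mem_range] at hi; omega)) x

/-- **The chain rule of the level `k`**, in the form of the product map. -/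
theorem rho_D (k : ℕ) (v : (P.G.Xi F).V) :
    P.rho F A k ((P.G.Xi F).d v) -
      ∑ i : Fin n, H103.lw (F.F ((undS A).P k)) (y0 I i) (P.rho F A k ((P.G.Xi F).e i v)) =
    (((k : ℤ)).negOnePow : ℤ) • H103.tD (dga I 0) (F.F ((undS A).P k)) (P.rho F A k v) +
      P.rdl F A k v := by
  have hsz : (((k : ℤ)).negOnePow : ℤ) •
      H103.tD (dga I 0) (F.F ((undS A).P k)) (P.rho F A k v) =
      (-1 : ℂ) ^ k • H103.tD (dga I 0) (F.F ((undS A).P k)) (P.rho F A k v) := by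
    rw [← Int.cast_smul_eq_zsmul ℂ, Int.negOnePow_def]
    simp
  rw [hsz]
  refine P.D_aux F ((jS A).P k) ((-1 : ℂ) ^ k) (v k) _ _ _ ?_ fun i => ?_
  · match k with
    | 0 =>
      refine Eq.trans ?_ (add_zero _).symm
      exact ((congrArg (· • P.gx F ((jS A).P 0) (H103.tD (dga I n) (F.F ((ptS Γ).P 0)) (v 0)))
        (pow_zero (-1 : ℂ))).trans (one_smul ℂ _)).symm
    | (k + 1) =>
      have e1 := P.gx_dl F A k (v k)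
      let x : Wk I n ⊗[ℂ] (F.F ((ptS Γ).P (k + 1))).M.V :=
        ((P.G.wk F).cs (ptS Γ).co).dl k (v k)
      have e2 : P.rho F A (k + 1) ((P.G.Xi F).d v) = P.gx F ((jS A).P (k + 1))
          ((-1 : ℂ) ^ (k + 1) • H103.tD (dga I n) (F.F ((ptS Γ).P (k + 1))) (v (k + 1)) +
            x) := rfl
      rw [e2, map_add, map_smul]
      exact congrArg (_ + ·) e1
  · have e1 : P.rho F A k ((P.G.Xi F).e i v) = P.gx F ((jS A).P k)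
        ((-1 : ℂ) ^ k • lop (WK I n) (F.F ((ptS Γ).P k)).M (P.G.e i) (v k)) :=
      congrArg (P.gx F ((jS A).P k)) (P.G.Xi_e_apply F i v k)
    rw [e1, map_smul, P.e]
    rfl

theorem rho_gr (k : ℕ) {m : ℤ} {v : (P.G.Xi F).V} (hv : v ∈ (P.G.Xi F).gr m) :
    P.rho F A k v ∈ tgr (WK I 0).toGD (F.F ((undS A).P k)).M (m - k) :=
  P.gx_gr F _ (hv k)

/-- Cochains. -/
theorem rho_xi {F' : OmF (BGT Γ)} {p : ℤ} (c : OmF.Coch F F' p) (k : ℕ) (v : (P.G.Xi F).V) :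
    P.rho F' A k ((P.G.xi c).f v) =
      sz p ^ k • tco (WK I 0) p (c.f ((undS A).P k)) (P.rho F A k v) := by
  have e1 : P.rho F' A k ((P.G.xi c).f v) = P.gx F' ((jS A).P k)
      (sz p ^ k • tco (WK I n) p (c.f ((ptS Γ).P k)) (v k)) := rfl
  rw [e1, map_smul]
  exact congrArg (sz p ^ k • ·) (P.gx_tco F c ((jS A).P k) (v k))

/-- Naturality in the object. -/
theorem rho_nat {A B : Gen.BGObj Γ} (φ : A ⟶ B) (k : ℕ) (v : (P.G.Xi F).V) :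
    (P.G₀.map F ((undM φ).P k)).f (P.rho F A k v) = P.rho F B k v := by
  have e1 := P.map_gx F ((jS A).P k) ((undM φ).P k) (v k)
  rw [jS_undM] at e1
  exact e1

/-- The faces of the levels. -/
theorem rho_face (k i : ℕ) (hi : i ≤ k + 1) (v : (P.G.Xi F).V) :
    (P.G₀.map F ((undS A).fc k i)).f (P.rho F A k v) =
      P.gx F ((jS A).P (k + 1)) ((P.G.map F ((ptS Γ).fc k i)).f (v k)) :=
  (P.gx_sq F ((jS A).face k i hi) (v k)).symm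

end XP

end

end Vale.Agent.P286.H56
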