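import Vale.Agent.P286.H56.TriPt
import Vale.Agent.P286.H56.ZqC
import Vale.Agent.P286.H64.EpsPt

/-!
# The triangle at the point: the calculation
-/

namespace Vale.Agent.P286.H56

open CategoryTheory TensorProduct Vale.Agent.P286.Gen Vale.Agent.P286.H295 Vale.Agent.P286.H389
  Vale.Agent.P286.H761 Vale.Agent.P286.H847 Vale.Agent.P286.H847.SGD Vale.Agent.P286.H652
  Vale.Agent.P286.H64 Vale.Agent.P286.H697 Vale.Agent.P286.H710

noncomputable section

section Aug

variable {A : Type} [CommRing A] [Algebra ℂ A] (aug : A →ₐ[ℂ] ℂ)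
  (h : ∀ a, algebraMap ℂ A (aug a) = a)

include h

/-- There are no forms over the base field. -/
theorem om_pt (u : Om ℂ A) : u = algebraMap A (Om ℂ A) (outO A u) := by
  induction u using Om.induction with
  | alg b => exact congrArg (algebraMap A (Om ℂ A)) (outO_inO b).symm
  | dd b =>
    have e : (Om.dd b : Om ℂ A) = 0 := by
      rw [← h b, Om.dd_const]
    rw [e, map_zero, map_zero]
  | mul x y hx hy =>
    have e : outO A (x * y) = outO A x * outO A y :=
      map_mul (ExteriorAlgebra.algebraMapInv (R := A) (M := Ω[A⁄ℂ])) x y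
    rw [e, map_mul, ← hx, ← hy]
  | add x y hx hy => rw [map_add, map_add, ← hx, ← hy]

theorem om_pt_smul (M : OmM A) (u : Om ℂ A) (x : M.M.V) : u • x = aug (outO A u) • x := by
  conv_lhs => rw [om_pt aug h u]
  rw [algebraMap_smul, ← h (outO A u), algebraMap_smul, h]

end Aug

section EpL

variable {W : Type} [Ring W] [Algebra ℂ W] (a : H103.Dga W) (ε : W →ₗ[ℂ] ℂ)

/-- The map `w ⊗ x ↦ ε(w) x`. -/
def epL (V : Type) [AddCommGroup V] [Module ℂ V] : W ⊗[ℂ] V →ₗ[ℂ] V :=
  (TensorProduct.lid ℂ V).toLinearMap ∘ₗ TensorProduct.map ε LinearMap.id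

theorem epL_tmul {V : Type} [AddCommGroup V] [Module ℂ V] (w : W) (x : V) :
    epL ε V (w ⊗ₜ[ℂ] x) = ε w • x := by
  rw [epL, LinearMap.comp_apply, TensorProduct.map_tmul]
  exact TensorProduct.lid_tmul _ _

variable {A : Type} [CommRing A] [Algebra ℂ A] (M : OmM A)

theorem epL_lw (hm : ∀ x y, ε (x * y) = ε x * ε y) (w : W) (z : W ⊗[ℂ] M.M.V) :
    epL ε M.M.V (H103.lw M w z) = ε w • epL ε M.M.V z := by
  induction z using TensorProduct.induction_on with
  | zero => rw [map_zero, map_zero, smul_zero]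
  | tmul v x => rw [H103.lw_tmul, epL_tmul, epL_tmul, hm, mul_smul]
  | add x y hx hy => rw [map_add, map_add, map_add, smul_add, hx, hy]

theorem epL_ro (hs : ∀ x, ε (a.sg x) = ε x) (u : Om ℂ A) (z : W ⊗[ℂ] M.M.V) :
    epL ε M.M.V (H103.ro a M u z) = u • epL ε M.M.V z := by
  induction z using TensorProduct.induction_on with
  | zero => rw [map_zero, map_zero, smul_zero]
  | tmul v x =>
    rw [H103.ro_tmul, map_add, epL_tmul, epL_tmul, epL_tmul, hs, ← smul_add, ← add_smul,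
      H103.pe_add_po, smul_comm]
  | add x y hx hy => rw [map_add, map_add, map_add, smul_add, hx, hy]

end EpL

section Fold

variable {W : Type} [Ring W] [Algebra ℂ W] (a : H103.Dga W) {A B : Type} [CommRing A]
  [Algebra ℂ A] [CommRing B] [Algebra ℂ B] (f : A →ₐ[ℂ] B) {M : OmM A} {M' : OmM B}
  (t : M.M.V →ₗ[ℂ] M'.M.V) (T : W ⊗[ℂ] M.M.V →ₗ[ℂ] W ⊗[ℂ] M'.M.V)
  (hT : ∀ (w : W) (x : M.M.V), T (w ⊗ₜ[ℂ] x) = w ⊗ₜ[ℂ] t x)

include hT

theorem one_lw (w : W) (z : W ⊗[ℂ] M.M.V) : T (H103.lw M w z) = H103.lw M' w (T z) := by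
  induction z using TensorProduct.induction_on with
  | zero => rw [map_zero, map_zero, map_zero]
  | tmul v x => rw [H103.lw_tmul, hT, hT, H103.lw_tmul]
  | add x y hx hy => rw [map_add, map_add, map_add, map_add, hx, hy]

theorem one_ro (ht : ∀ (u : Om ℂ A) (x : M.M.V), t (u • x) = Om.pb f u • t x) (u : Om ℂ A)
    (z : W ⊗[ℂ] M.M.V) : T (H103.ro a M u z) = H103.ro a M' (Om.pb f u) (T z) := by
  have hpe : Om.pb f (H103.pe A u) = H103.pe B (Om.pb f u) := by
    rw [H103.pe_apply, H103.pe_apply, Om.pb_csmul, map_add, Om.pb_sg]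
  have hpo : Om.pb f (H103.po A u) = H103.po B (Om.pb f u) := by
    rw [H103.po_apply, H103.po_apply, Om.pb_csmul, map_sub, Om.pb_sg]
  induction z using TensorProduct.induction_on with
  | zero => rw [map_zero, map_zero, map_zero]
  | tmul v x => rw [hT, H103.ro_tmul, H103.ro_tmul, map_add, hT, hT, ht, ht, hpe, hpo]
  | add x y hx hy => rw [map_add, map_add, map_add, map_add, hx, hy]

/-- The product map followed by a transition map without gauge. -/
theorem one_zq (ht : ∀ (u : Om ℂ A) (x : M.M.V), t (u • x) = Om.pb f u • t x) {D : Type}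
    [CommRing D] [Algebra ℂ D] (g : D →ₐ[ℂ] A) {V : Type} [AddCommGroup V] [Module ℂ V] (k : ℤ)
    (ρ : V →ₗ[ℂ] W ⊗[ℂ] M.M.V) (w : W) (u : Om ℂ D) (v : V) :
    T (H103.zq a g M k ρ (w ⊗ₜ[ℂ] (u ⊗ₜ[ℂ] v))) =
      H103.lw M' (a.sgz k w) (H103.ro a M' (Om.pb (f.comp g) (H697.Om.sgz k u)) (T (ρ v))) := by
  rw [H103.zq_tmul, one_lw t T hT, one_ro a f t T hT ht, ← H697.Om.pb_sgz, Om.pb_pb]

end Fold

end

end Vale.Agent.P286.H56
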