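import Vale.Agent.P286.H56.TriA
import Vale.Agent.P286.H56.Xp
import Vale.Agent.P286.H64.EpsN
import Vale.Agent.P286.H652.MidI
import Vale.Agent.P286.H389.ThX

/-!
# The triangle at the point
-/

namespace Vale.Agent.P286.H56

open CategoryTheory TensorProduct Vale.Agent.P286.Gen Vale.Agent.P286.H295 Vale.Agent.P286.H389
  Vale.Agent.P286.H761 Vale.Agent.P286.H847 Vale.Agent.P286.H847.SGD Vale.Agent.P286.H652
  Vale.Agent.P286.H64 Vale.Agent.P286.H697 Vale.Agent.P286.H710 Vale.Agent.P286.H987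
  Vale.Agent.P286.H867

noncomputable section

variable {N : ℕ} {Γ : Gps N} {I : Type} [Fintype I] [DecidableEq I]

/-- The augmentation of the algebra without `ξ`. -/
def ep0 (I : Type) [Fintype I] [DecidableEq I] : Wk I 0 →ₗ[ℂ] ℂ := (Wk.eps I 0).toLinearMap

theorem ep0_mul (x y : Wk I 0) : ep0 I (x * y) = ep0 I x * ep0 I y := map_mul (Wk.eps I 0) x y

theorem ep0_sg (x : Wk I 0) : ep0 I ((dga I 0).sg x) = ep0 I x := Wk.eps_sg x

theorem epL_x0 {n : ℕ} {V : Type} [AddCommGroup V] [Module ℂ V] (z : Wk I n ⊗[ℂ] V) :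
    epL (ep0 I) V (x0 I n V z) = epL (Wk.eps I n).toLinearMap V z := by
  induction z using TensorProduct.induction_on with
  | zero => rw [map_zero, map_zero, map_zero]
  | tmul w x =>
    rw [rV_tmul, epL_tmul, epL_tmul]
    exact congrArg (· • x) (rs_eps w)
  | add a b ha hb => rw [map_add, map_add, map_add, ha, hb]

variable [hs : Algebra.Smooth ℂ (Of Γ)] (R : Rpn Γ I) (n : ℕ) (F : OmF (BGT Γ))

theorem inr_foldU_pt : inr (BPt Γ) ≫ foldU (BPt Γ) = 𝟙 (BPt Γ) := inr_foldPt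

theorem fold_f : (Gen.BGHom.f (foldU (BPt Γ))).comp (Gen.BGHom.f (inl (BPt Γ))) =
    AlgHom.id ℂ (BPt Γ).A.R :=
  congrArg Gen.BGHom.f (inl_foldU (BPt Γ))

theorem fold_rho (v : ((gauX n R).Xi F).V) :
    ((gauX 0 R).map F (foldU (BPt Γ))).f ((xp n R).rho F (BPt Γ) 0 v) =
      x0 I n (F.F (BPt Γ)).M.V (v 0) := by
  have e1 := (xp n R).map_gx F (inr (BPt Γ)) (foldU (BPt Γ)) (v 0)
  rw [inr_foldU_pt] at e1
  exact e1.trans ((gauX 0 R).map_id F (BPt Γ) _)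

/-- The left side of the triangle. -/
def triL : TV (WK I 0) ((gauX n R).Xi F) (BPt Γ).A.R →ₗ[ℂ] (fib F (BPt Γ)).M.V :=
  (epL (ep0 I) (fib F (BPt Γ)).M.V).comp ((((gauX 0 R).map F (foldU (BPt Γ))).f).comp
    (H103.zq (dga I 0) (Gen.BGHom.f (inl (BPt Γ))) (fib F (cop (BPt Γ))) ((0 : ℕ) : ℤ)
      ((xp n R).rho F (BPt Γ) 0)))

/-- The right side of the triangle. -/
def triR : TV (WK I 0) ((gauX n R).Xi F) (BPt Γ).A.R →ₗ[ℂ] (fib F (BPt Γ)).M.V :=
  (((gauX n R).pi F).f).comp (epsV (ctrW I n) (augPt Γ) ((gauX n R).Xi F))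

/-- **The triangle at the point.** -/
theorem tri0 (z : TV (WK I 0) ((gauX n R).Xi F) (BPt Γ).A.R) : triL R n F z = triR R n F z := by
  induction z using TV.ind with
  | zero => rw [map_zero, map_zero]
  | tmul w u v =>
    have e1 := one_zq (dga I 0) (Gen.BGHom.f (foldU (BPt Γ))) (M := fib F (cop (BPt Γ)))
      (M' := fib F (BPt Γ)) (fibt F (foldU (BPt Γ))).f ((gauX 0 R).map F (foldU (BPt Γ))).f
      (fun w x => H459.gm1_h1 R (foldU (BPt Γ)) _ _ (fibt F (foldU (BPt Γ))) rfl w x)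
      (fibt_smul F (foldU (BPt Γ))) (Gen.BGHom.f (inl (BPt Γ))) ((0 : ℕ) : ℤ)
      ((xp n R).rho F (BPt Γ) 0) w u v
    refine (congrArg (epL (ep0 I) (fib F (BPt Γ)).M.V) e1).trans ?_
    rw [epL_lw (ep0 I) _ ep0_mul, epL_ro (dga I 0) (ep0 I) _ ep0_sg,
      om_pt_smul (augPt Γ) alg_augPt]
    refine Eq.trans ?_ ((congrArg ((gauX n R).pi F).f
      (epsV_tmul (ctrW I n) (augPt Γ) (N := (gauX n R).Xi F) w u v)).trans
        (map_smul ((gauX n R).pi F).f _ _)).symm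
    rw [smul_smul, mul_comm]
    have e2 : Om.pb ((Gen.BGHom.f (foldU (BPt Γ))).comp (Gen.BGHom.f (inl (BPt Γ))))
        (H697.Om.sgz ((0 : ℕ) : ℤ) u) = u := by
      rw [fold_f, Om.pb_id, Nat.cast_zero, H697.Om.sgz_zero]
    have e3 : (dga I 0).sgz ((0 : ℕ) : ℤ) w = w := by rw [Nat.cast_zero, (dga I 0).sgz_zero]
    rw [e2, e3]
    have e4 := congrArg (epL (ep0 I) (fib F (BPt Γ)).M.V) (fold_rho R n F v)
    exact congrArg (fun y => (augPt Γ (outO (BPt Γ).A.R u) * Wk.eps I 0 w) • y)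
      (e4.trans (epL_x0 (v 0)))
  | add x y hx hy => rw [map_add, map_add, hx, hy]

end

end Vale.Agent.P286.H56
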