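import Vale.Agent.P286.H166.Wk1
import Vale.Agent.P286.H374.GauE

/-!
# The homomorphism `ξ ↦ 0`

`rs : Wk I n → Wk I 0` commutes with the operators of the Weil algebra, and with the differential
up to the terms `y_t ∂/∂ξ_t`.  On `W ⊗ V` it commutes with the gauge transformations.
-/

namespace Vale.Agent.P286.H56

open TensorProduct Matrix Vale.Agent.P286.H847 Vale.Agent.P286.H847.SGD

noncomputable section

set_option linter.unusedSectionVars false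

section Alg

variable {I : Type} [Fintype I] [DecidableEq I] {n : ℕ}

theorem w_neg_mul (a b : Wk I n) : -a * b = -(a * b) := neg_mul a b

theorem rs_inP (f : Pl I) : Wk.rs I n (Wk.inP I n f) = Wk.inP I 0 f := by
  rw [Wk.inP, Algebra.TensorProduct.includeRight_apply, Wk.rs, Algebra.TensorProduct.map_tmul,
    map_one]
  rfl

theorem rs_inL (l : Lm I n) : Wk.rs I n (Wk.inL I n l) = Wk.inL I 0
    (ExteriorAlgebra.map (LinearMap.pi fun a : Gn I 0 =>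
      LinearMap.proj (Sum.elim (fun p => (Sum.inl p : Gn I n)) (fun t => t.elim0) a)) l) := by
  rw [Wk.inL, Algebra.TensorProduct.includeLeft_apply, Wk.rs, Algebra.TensorProduct.map_tmul,
    map_one]
  rfl

theorem rs_gn_inl (p : I × I) :
    Wk.rs I n (Wk.gn I n (Sum.inl p)) = Wk.gn I 0 (Sum.inl p) := by
  rw [Wk.gn, rs_inL, ExteriorAlgebra.map_apply_ι, Wk.gn]
  congr 2
  funext a
  rcases a with q | t
  · simp [Pi.single_apply]
  · exact t.elim0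

theorem rs_gn_inr (t : Fin n) : Wk.rs I n (Wk.gn I n (Sum.inr t)) = 0 := by
  rw [Wk.gn, rs_inL, ExteriorAlgebra.map_apply_ι]
  have h : (LinearMap.pi fun a : Gn I 0 =>
      (LinearMap.proj (Sum.elim (fun p => (Sum.inl p : Gn I n)) (fun t => t.elim0) a) :
        (Gn I n → ℂ) →ₗ[ℂ] ℂ)) (Pi.single (Sum.inr t : Gn I n) (1 : ℂ)) = 0 := by
    funext a
    rcases a with q | t
    · simp
    · exact t.elim0
  rw [h, map_zero, map_zero]

theorem rs_xi (t : Fin n) : Wk.rs I n (Wk.xi I n t) = 0 := rs_gn_inr t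

theorem rs_th (i j : I) : Wk.rs I n (Wk.th I n i j) = Wk.th I 0 i j := rs_gn_inl (i, j)

theorem rs_Fm (i j : I) : Wk.rs I n (Wk.Fm I n i j) = Wk.Fm I 0 i j := rs_inP _

variable (I) in
/-- The elements `y_t` of the algebra without `ξ`. -/
def y0 (t : ℕ) : Wk I 0 := Wk.inP I 0 (Wk.ep I (2 * (t + 1)))

theorem rs_y (t : Fin n) : Wk.rs I n (Wk.y I n t) = y0 I t := rs_inP _

theorem y0_comm (t : ℕ) (x : Wk I 0) : y0 I t * x = x * y0 I t := Wk.inP_comm _ x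

theorem sgA_y0 (t : ℕ) : Wk.sgA I 0 (y0 I t) = y0 I t := Wk.sgA_inP _

theorem d_y0 (t : ℕ) : Wk.d I 0 (y0 I t) = 0 := Wk.d_ep _

theorem y0_gr (t : ℕ) : y0 I t ∈ Wk.gr I 0 (4 * (t : ℤ) + 4) := by
  have h := Wk.inP_gr (I := I) (n := 0) (Wk.ep_hom (I := I) (2 * (t + 1)))
  have e : (4 * (t : ℤ) + 4) = 2 * ((2 * (t + 1) : ℕ) : ℤ) := by push_cast; ring
  rw [e]
  exact h

theorem rs_sgA (w : Wk I n) : Wk.rs I n (Wk.sgA I n w) = Wk.sgA I 0 (Wk.rs I n w) := by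
  induction w using Wk.ind with
  | hp f => rw [Wk.sgA_inP, rs_inP, Wk.sgA_inP]
  | ho a x hx =>
    rw [map_mul, Wk.sgA_gn, map_mul, map_mul, map_mul, hx]
    rcases a with p | t
    · rw [map_neg, rs_gn_inl, Wk.sgA_gn]
    · rw [map_neg, rs_gn_inr, map_zero, neg_zero]
  | hs c x hx => rw [map_smul, map_smul, map_smul, map_smul, hx]
  | ha x y hx hy => rw [map_add, map_add, map_add, map_add, hx, hy]

theorem rs_sg (w : Wk I n) : Wk.rs I n (Wk.sg I n w) = Wk.sg I 0 (Wk.rs I n w) := rs_sgA w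

theorem ct_gn_mul (a b : Gn I n) (x : Wk I n) : Wk.ct I n a (Wk.gn I n b * x) =
    (if a = b then x else 0) - Wk.gn I n b * Wk.ct I n a x := by
  rw [Wk.ct_mul, Wk.ct_gn, Wk.sgA_gn, w_neg_mul, ← sub_eq_add_neg, ite_mul, one_mul, zero_mul]

theorem ct_inP_mul (a : Gn I n) (f : Pl I) (x : Wk I n) : Wk.ct I n a (Wk.inP I n f * x) =
    Wk.inP I n f * Wk.ct I n a x := by
  rw [Wk.ct_mul, Wk.ct_inP, Wk.sgA_inP, zero_mul, zero_add]

theorem d_gn_mul (a : Gn I n) (x : Wk I n) : Wk.d I n (Wk.gn I n a * x) =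
    Wk.dgn I n a * x - Wk.gn I n a * Wk.d I n x := by
  rw [Wk.d_mul, Wk.d_gn, Wk.sgA_gn, w_neg_mul, ← sub_eq_add_neg]

theorem rs_ct (p : I × I) (w : Wk I n) :
    Wk.rs I n (Wk.ct I n (Sum.inl p) w) = Wk.ct I 0 (Sum.inl p) (Wk.rs I n w) := by
  induction w using Wk.ind with
  | hp f => rw [Wk.ct_inP, rs_inP, Wk.ct_inP, map_zero]
  | ho a x hx =>
    rw [ct_gn_mul, map_sub, map_mul, hx, map_mul]
    rcases a with q | t
    · rw [rs_gn_inl, ct_gn_mul]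
      by_cases h : p = q
      · subst h
        rw [if_pos rfl, if_pos rfl]
      · rw [if_neg (fun h2 => h (Sum.inl.inj h2)), if_neg (fun h2 => h (Sum.inl.inj h2)), map_zero]
    · rw [rs_gn_inr, zero_mul, zero_mul, map_zero, if_neg Sum.inl_ne_inr, map_zero, sub_zero]
  | hs c x hx => rw [map_smul, map_smul, map_smul, map_smul, hx]
  | ha x y hx hy => rw [map_add, map_add, map_add, map_add, hx, hy]

theorem rs_dgn_inl (p : I × I) :
    Wk.rs I n (Wk.dgn I n (Sum.inl p)) = Wk.dgn I 0 (Sum.inl p) := by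
  change Wk.rs I n ((Wk.Fm I n - Wk.th I n * Wk.th I n) p.1 p.2) =
    (Wk.Fm I 0 - Wk.th I 0 * Wk.th I 0) p.1 p.2
  rw [Matrix.sub_apply, Matrix.sub_apply, map_sub, rs_Fm, Matrix.mul_apply, Matrix.mul_apply,
    map_sum]
  congr 1
  refine Finset.sum_congr rfl fun k _ => ?_
  rw [map_mul, rs_th, rs_th]

theorem rs_dgn_inr (t : Fin n) : Wk.rs I n (Wk.dgn I n (Sum.inr t)) = y0 I t := rs_y t

theorem rs_dF (s : I × I) : Wk.rs I n (Wk.dF I n s) = Wk.dF I 0 s := by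
  change Wk.rs I n ((Wk.Fm I n * Wk.th I n - Wk.th I n * Wk.Fm I n) s.1 s.2) =
    (Wk.Fm I 0 * Wk.th I 0 - Wk.th I 0 * Wk.Fm I 0) s.1 s.2
  rw [Matrix.sub_apply, Matrix.sub_apply, map_sub, Matrix.mul_apply, Matrix.mul_apply,
    Matrix.mul_apply, Matrix.mul_apply, map_sum, map_sum]
  congr 1
  · refine Finset.sum_congr rfl fun k _ => ?_
    rw [map_mul, rs_th, rs_Fm]
  · refine Finset.sum_congr rfl fun k _ => ?_
    rw [map_mul, rs_th, rs_Fm]

theorem rs_pd (s : I × I) (w : Wk I n) :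
    Wk.rs I n (Wk.pd I n s w) = Wk.pd I 0 s (Wk.rs I n w) := by
  induction w using Wk.ind with
  | hp f => rw [Wk.pd_inP, rs_inP, rs_inP, Wk.pd_inP]
  | ho a x hx =>
    rw [Wk.pd_mul, Wk.pd_gn, zero_mul, zero_add, map_mul, map_mul, hx, Wk.pd_mul]
    rcases a with p | t
    · rw [rs_gn_inl, Wk.pd_gn, zero_mul, zero_add]
    · rw [rs_gn_inr, map_zero, zero_mul, zero_mul, zero_add]
  | hs c x hx => rw [map_smul, map_smul, map_smul, map_smul, hx]
  | ha x y hx hy => rw [map_add, map_add, map_add, map_add, hx, hy]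

theorem e_eq (t : Fin n) (x : Wk I n) : Wk.e I n t x = Wk.ct I n (Sum.inr t) x := rfl

theorem d_apply (w : Wk I n) : Wk.d I n w = ∑ p : I × I, Wk.dgn I n (Sum.inl p) *
    Wk.ct I n (Sum.inl p) w + ∑ t, Wk.y I n t * Wk.e I n t w +
      ∑ s, Wk.dF I n s * Wk.pd I n s w := by
  rw [Wk.d, LinearMap.add_apply, LinearMap.sum_apply, LinearMap.sum_apply, Fintype.sum_sum_type]
  rfl

/-- **`ξ ↦ 0` and the differential.** -/
theorem rs_d (w : Wk I n) : Wk.rs I n (Wk.d I n w) =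
    Wk.d I 0 (Wk.rs I n w) + ∑ t : Fin n, y0 I t * Wk.rs I n (Wk.e I n t w) := by
  rw [d_apply, d_apply (n := 0), map_add, map_add, map_sum, map_sum, map_sum]
  have h1 : ∑ p : I × I, Wk.rs I n (Wk.dgn I n (Sum.inl p) * Wk.ct I n (Sum.inl p) w) =
      ∑ p : I × I, Wk.dgn I 0 (Sum.inl p) * Wk.ct I 0 (Sum.inl p) (Wk.rs I n w) :=
    Finset.sum_congr rfl fun p _ => by rw [map_mul, rs_dgn_inl, rs_ct]
  have h2 : ∑ t, Wk.rs I n (Wk.y I n t * Wk.e I n t w) =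
      ∑ t : Fin n, y0 I t * Wk.rs I n (Wk.e I n t w) :=
    Finset.sum_congr rfl fun t _ => by rw [map_mul, rs_y]
  have h3 : ∑ s, Wk.rs I n (Wk.dF I n s * Wk.pd I n s w) =
      ∑ s, Wk.dF I 0 s * Wk.pd I 0 s (Wk.rs I n w) :=
    Finset.sum_congr rfl fun s _ => by rw [map_mul, rs_dF, rs_pd]
  rw [h1, h2, h3, Finset.univ_eq_empty (α := Fin 0), Finset.sum_empty]
  abel

theorem Nm_apply (w : Wk I n) : Wk.Nm I n w =
    ∑ p : I × I, Wk.gn I n (Sum.inl p) * Wk.ct I n (Sum.inl p) w +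
      ∑ t : Fin n, (((4 * (t : ℤ) + 3 : ℤ)) : ℂ) • (Wk.xi I n t * Wk.e I n t w) +
        ∑ s : I × I, (2 : ℂ) • (Wk.Fm I n s.1 s.2 * Wk.pd I n s w) := by
  rw [Wk.Nm, LinearMap.add_apply, LinearMap.sum_apply, LinearMap.sum_apply, Fintype.sum_sum_type]
  congr 2
  refine Finset.sum_congr rfl fun p _ => ?_
  have h : ((Wk.dg I n (Sum.inl p) : ℤ) : ℂ) = 1 := by simp [Wk.dg]
  rw [LinearMap.smul_apply, h, one_smul]
  rfl

theorem rs_Nm (w : Wk I n) : Wk.rs I n (Wk.Nm I n w) = Wk.Nm I 0 (Wk.rs I n w) := by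
  rw [Nm_apply, Nm_apply (n := 0), map_add, map_add, map_sum, map_sum, map_sum]
  have h1 : ∑ p : I × I, Wk.rs I n (Wk.gn I n (Sum.inl p) * Wk.ct I n (Sum.inl p) w) =
      ∑ p : I × I, Wk.gn I 0 (Sum.inl p) * Wk.ct I 0 (Sum.inl p) (Wk.rs I n w) :=
    Finset.sum_congr rfl fun p _ => by rw [map_mul, rs_gn_inl, rs_ct]
  have h2 : ∑ t : Fin n, Wk.rs I n ((((4 * (t : ℤ) + 3 : ℤ)) : ℂ) •
      (Wk.xi I n t * Wk.e I n t w)) = 0 :=
    Finset.sum_eq_zero fun t _ => by rw [map_smul, map_mul, rs_xi, zero_mul, smul_zero]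
  have h3 : ∑ s : I × I, Wk.rs I n ((2 : ℂ) • (Wk.Fm I n s.1 s.2 * Wk.pd I n s w)) =
      ∑ s : I × I, (2 : ℂ) • (Wk.Fm I 0 s.1 s.2 * Wk.pd I 0 s (Wk.rs I n w)) :=
    Finset.sum_congr rfl fun s _ => by rw [map_smul, map_mul, rs_Fm, rs_pd]
  rw [h1, h2, h3, Finset.univ_eq_empty (α := Fin 0), Finset.sum_empty]

theorem rs_gr {m : ℤ} {w : Wk I n} (hw : w ∈ Wk.gr I n m) : Wk.rs I n w ∈ Wk.gr I 0 m := by
  rw [Wk.mem_gr] at hw ⊢
  rw [← rs_Nm, hw, map_smul]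

theorem rs_eps (w : Wk I n) : Wk.eps I 0 (Wk.rs I n w) = Wk.eps I n w := by
  induction w using Wk.ind with
  | hp f => rw [rs_inP, Wk.eps_inP, Wk.eps_inP]
  | ho a x hx =>
    rw [map_mul, map_mul, map_mul, hx, Wk.eps_gn]
    rcases a with p | t
    · rw [rs_gn_inl, Wk.eps_gn]
    · rw [rs_gn_inr, map_zero]
  | hs c x hx => rw [map_smul, map_smul, map_smul, hx]
  | ha x y hx hy => rw [map_add, map_add, map_add, hx, hy]

end Alg

end

end Vale.Agent.P286.H56
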