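import Vale.Agent.P286.H56.Xi0
import Vale.Agent.P286.H103.ZaOp

/-!
# The map `ξ ↦ 0` on `W ⊗ V`
-/

namespace Vale.Agent.P286.H56

open TensorProduct Matrix Vale.Agent.P286.H847 Vale.Agent.P286.H847.SGD
  Vale.Agent.P286.H374.Gau

noncomputable section

set_option linter.unusedSectionVars false

section Gen

variable {W W₀ : Type} [Ring W] [Algebra ℂ W] [Ring W₀] [Algebra ℂ W₀] (r : W →ₐ[ℂ] W₀)

/-- The map `r ⊗ 1`. -/
def rV (V : Type) [AddCommGroup V] [Module ℂ V] : W ⊗[ℂ] V →ₗ[ℂ] W₀ ⊗[ℂ] V :=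
  TensorProduct.map r.toLinearMap LinearMap.id

theorem rV_tmul {V : Type} [AddCommGroup V] [Module ℂ V] (w : W) (x : V) :
    rV r V (w ⊗ₜ[ℂ] x) = r w ⊗ₜ[ℂ] x := rfl

theorem rV_lw {V : Type} [AddCommGroup V] [Module ℂ V] (w : W) :
    Rel (rV r V) (lw V w) (lw V (r w)) := fun z => by
  induction z using TensorProduct.induction_on with
  | zero => rw [map_zero, map_zero, map_zero]
  | tmul v x => rw [lw_tmul, rV_tmul, rV_tmul, lw_tmul, map_mul]
  | add a b ha hb => rw [map_add, map_add, map_add, map_add, ha, hb]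

section B

variable {B : Type} [CommRing B] [Algebra ℂ B]
  {V : Type} [AddCommGroup V] [Module ℂ V] [Module (H710.Om ℂ B) V]
  [IsScalarTower ℂ (H710.Om ℂ B) V]

theorem rV_ro (b : B) : Rel (rV r V) (ro V W b) (ro V W₀ b) := fun z => by
  induction z using TensorProduct.induction_on with
  | zero => rw [map_zero, map_zero, map_zero]
  | tmul v x => rw [ro_tmul, rV_tmul, rV_tmul, ro_tmul]
  | add a b ha hb => rw [map_add, map_add, map_add, map_add, ha, hb]

theorem rV_r1 {s : W →ₐ[ℂ] W} {s₀ : W₀ →ₐ[ℂ] W₀} (hs : ∀ w, r (s w) = s₀ (r w))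
    (o : H710.Om ℂ B) : Rel (rV r V) (r1 s V o) (r1 s₀ V o) := fun z => by
  induction z using TensorProduct.induction_on with
  | zero => rw [map_zero, map_zero, map_zero]
  | tmul v x => rw [r1_tmul, rV_tmul, rV_tmul, r1_tmul, hs]
  | add a b ha hb => rw [map_add, map_add, map_add, map_add, ha, hb]

end B

variable {I : Type} [Fintype I] [DecidableEq I] {n : ℕ} {y : Fin n → MvPolynomial (I × I) ℂ}
  {y₀ : Fin 0 → MvPolynomial (I × I) ℂ} {Q : WD I n y W} {Q₀ : WD I 0 y₀ W₀}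

variable (Q Q₀) in
/-- The conditions on the homomorphism `ξ ↦ 0`. -/
structure IsRs : Prop where
  s : ∀ w, r (Q.s w) = Q₀.s (r w)
  th : ∀ i j, r (Q.th i j) = Q₀.th i j
  xi : ∀ i, r (Q.xi i) = 0
  P : ∀ p, r (Q.P p) = Q₀.P p

variable {r}

/-- **`ξ ↦ 0` commutes with the gauge transformations** (operators). -/
theorem IsRs.rel_aU (h : IsRs r Q Q₀) {B : Type} [CommRing B] [Algebra ℂ B] (M : H697.OmM B)
    (U U' : Matrix I I B) (w : W) :
    Rel (rV r M.M.V) ((rM Q M).aU U U' w) ((rM Q₀ M).aU U U' (r w)) := by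
  have ho : ∀ A : Matrix I I B, RelM (rV r M.M.V) ((rM Q M).roM A) ((rM Q₀ M).roM A) :=
    fun A i j => rV_ro r _
  have hd : ∀ A : Matrix I I B, RelM (rV r M.M.V) ((rM Q M).deM A) ((rM Q₀ M).deM A) :=
    fun A i j => rV_r1 r h.s _
  have hth : RelM (rV r M.M.V) ((rM Q M).lwM Q.th) ((rM Q₀ M).lwM Q₀.th) := fun i j => by
    rw [Rp.lwM_apply, Rp.lwM_apply, ← h.th]
    exact rV_lw r _
  have hFm : RelM (rV r M.M.V) ((rM Q M).lwM Q.Fm) ((rM Q₀ M).lwM Q₀.Fm) := fun i j => by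
    rw [Rp.lwM_apply, Rp.lwM_apply, WD.Fm_apply, WD.Fm_apply, ← h.P]
    exact rV_lw r _
  induction w using Q.ind with
  | h1 i j =>
    rw [h.th, Rp.aU_th, Rp.aU_th]
    exact RelM.add (RelM.mul (RelM.mul (ho _) hth) (ho _)) (RelM.mul (ho _) (hd _)) i j
  | h2 i =>
    rw [h.xi, Rp.aU_xi, map_zero]
    intro z
    have h1 := rV_lw r (V := M.M.V) (Q.xi i) z
    rw [h.xi, lw_zero] at h1
    exact h1
  | h3 i j =>
    rw [h.P, Rp.aU_F, Rp.aU_F]
    exact RelM.mul (RelM.mul (ho _) hFm) (ho _) i j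
  | hc c =>
    rw [AlgHom.commutes, AlgHom.commutes, AlgHom.commutes]
    intro z
    rw [Module.algebraMap_end_apply, Module.algebraMap_end_apply, map_smul]
  | ha a b ha hb => rw [map_add, map_add, map_add]; exact ha.add hb
  | hm a b ha hb => rw [map_mul, map_mul, map_mul]; exact ha.mul hb

/-- **`ξ ↦ 0` commutes with the gauge transformations.** -/
theorem IsRs.G (h : IsRs r Q Q₀) {B : Type} [CommRing B] [Algebra ℂ B] {M : H697.OmM B}
    {B' : Type} [CommRing B'] [Algebra ℂ B'] {M' : H697.OmM B'} (t : M.M.V →ₗ[ℂ] M'.M.V)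
    (U U' : Matrix I I B') (z : W ⊗[ℂ] M.M.V) :
    rV r M'.M.V (H374.Gau.G Q M M' t U U' z) = H374.Gau.G Q₀ M M' t U U' (rV r M.M.V z) := by
  induction z using TensorProduct.induction_on with
  | zero => rw [map_zero, map_zero, map_zero, map_zero]
  | tmul w x =>
    rw [G_tmul, rV_tmul, G_tmul, h.rel_aU, rV_tmul, map_one]
  | add a b ha hb => rw [map_add, map_add, map_add, map_add, ha, hb]

end Gen

section Wk

variable {I : Type} [Fintype I] [DecidableEq I] {n : ℕ}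

/-- The algebra `Wk` in the letters of the product map. -/
def dga (I : Type) [Fintype I] [DecidableEq I] (n : ℕ) : H103.Dga (Wk I n) where
  sg := Wk.sgA I n
  d := Wk.d I n
  sg_sg := Wk.sgA_sgA
  leib := Wk.d_mul
  sg_d := Wk.d_sg
  gr := Wk.gr I n
  mul_mem _ _ _ _ hx hy := Wk.mul_gr hx hy
  sg_mem m x hx := by
    rw [Wk.sgA_gr m hx]
    exact zsmul_mem hx _

/-- The map `ξ ↦ 0` on `W ⊗ V`. -/
abbrev x0 (I : Type) [Fintype I] [DecidableEq I] (n : ℕ) (V : Type) [AddCommGroup V]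
    [Module ℂ V] : Wk I n ⊗[ℂ] V →ₗ[ℂ] Wk I 0 ⊗[ℂ] V := rV (Wk.rs I n) V

/-- The operator `∂/∂ξ_t ⊗ 1`. -/
def eV (I : Type) [Fintype I] [DecidableEq I] (n : ℕ) (V : Type) [AddCommGroup V] [Module ℂ V]
    (t : Fin n) : Wk I n ⊗[ℂ] V →ₗ[ℂ] Wk I n ⊗[ℂ] V :=
  TensorProduct.map (Wk.e I n t) LinearMap.id

theorem eV_tmul {V : Type} [AddCommGroup V] [Module ℂ V] (t : Fin n) (w : Wk I n) (x : V) :
    eV I n V t (w ⊗ₜ[ℂ] x) = Wk.e I n t w ⊗ₜ[ℂ] x := rfl

/-- **`ξ ↦ 0` and the differential of `W ⊗ V`.** -/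
theorem x0_td (E : GD) (z : Wk I n ⊗[ℂ] E.V) :
    x0 I n E.V (td (WK I n) E z) = td (WK I 0) E (x0 I n E.V z) +
      ∑ t : Fin n, lw E.V (y0 I t) (x0 I n E.V (eV I n E.V t z)) := by
  induction z using TensorProduct.induction_on with
  | zero => simp only [map_zero, Finset.sum_const_zero, add_zero]
  | tmul w x =>
    rw [td_tmul, map_add, rV_tmul, rV_tmul, rV_tmul, td_tmul]
    have h1 : Wk.rs I n ((WK I n).d w) = Wk.d I 0 (Wk.rs I n w) +
      ∑ t : Fin n, y0 I t * Wk.rs I n (Wk.e I n t w) := rs_d w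
    have h2 : Wk.rs I n ((WK I n).sg w) = Wk.sg I 0 (Wk.rs I n w) := rs_sg w
    rw [h1, h2, add_tmul, TensorProduct.sum_tmul]
    have h3 : ∀ t : Fin n, lw E.V (y0 I t) (x0 I n E.V (eV I n E.V t (w ⊗ₜ[ℂ] x))) =
        (y0 I t * Wk.rs I n (Wk.e I n t w)) ⊗ₜ[ℂ] x := fun t => rfl
    simp only [h3]
    abel
  | add a b ha hb =>
    simp only [map_add, ha, hb, Finset.sum_add_distrib]
    abel

theorem x0_sg {V V' : Type} [AddCommGroup V] [Module ℂ V] [AddCommGroup V'] [Module ℂ V']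
    (f : V →ₗ[ℂ] V') (z : Wk I n ⊗[ℂ] V) :
    x0 I n V' (TensorProduct.map (Wk.sg I n) f z) =
      TensorProduct.map (Wk.sg I 0) f (x0 I n V z) := by
  induction z using TensorProduct.induction_on with
  | zero => rw [map_zero, map_zero, map_zero, map_zero]
  | tmul w x => rw [map_tmul, rV_tmul, rV_tmul, map_tmul]; exact congrArg (· ⊗ₜ f x) (rs_sg w)
  | add a b ha hb => rw [map_add, map_add, map_add, map_add, ha, hb]

theorem x0_id {V V' : Type} [AddCommGroup V] [Module ℂ V] [AddCommGroup V'] [Module ℂ V']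
    (f : V →ₗ[ℂ] V') (z : Wk I n ⊗[ℂ] V) :
    x0 I n V' (TensorProduct.map LinearMap.id f z) =
      TensorProduct.map LinearMap.id f (x0 I n V z) := by
  induction z using TensorProduct.induction_on with
  | zero => rw [map_zero, map_zero, map_zero, map_zero]
  | tmul w x => rfl
  | add a b ha hb => rw [map_add, map_add, map_add, map_add, ha, hb]

theorem x0_gr (E : GD) {m : ℤ} {z : Wk I n ⊗[ℂ] E.V} (hz : z ∈ tgr (WK I n).toGD E m) :
    x0 I n E.V z ∈ tgr (WK I 0).toGD E m := by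
  refine map_tgr (E := (WK I n).toGD) (F := E) (E' := (WK I 0).toGD) (F' := E)
    (T := x0 I n E.V) ?_ hz
  intro i j x y hij hx hy
  exact tmul_mem hij (rs_gr hx) hy

/-- In the letters of the product map: multiplications by forms. -/
theorem x0_ro {B : Type} [CommRing B] [Algebra ℂ B] (M : H697.OmM B) (w : H710.Om ℂ B)
    (z : Wk I n ⊗[ℂ] M.M.V) :
    x0 I n M.M.V (H103.ro (dga I n) M w z) = H103.ro (dga I 0) M w (x0 I n M.M.V z) := by
  induction z using TensorProduct.induction_on with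
  | zero => rw [map_zero, map_zero, map_zero]
  | tmul u x =>
    rw [H103.ro_tmul, rV_tmul, H103.ro_tmul, map_add, rV_tmul, rV_tmul]
    exact congrArg (fun v => _ + v ⊗ₜ[ℂ] _) (rs_sgA u)
  | add a b ha hb => rw [map_add, map_add, map_add, map_add, ha, hb]

/-- In the letters of the product map: multiplications by elements of the algebra. -/
theorem x0_lw {B : Type} [CommRing B] [Algebra ℂ B] (M : H697.OmM B) (w : Wk I n)
    (z : Wk I n ⊗[ℂ] M.M.V) :
    x0 I n M.M.V (H103.lw M w z) = H103.lw M (Wk.rs I n w) (x0 I n M.M.V z) := rV_lw _ w z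

/-- **`ξ ↦ 0` and the differential**, in the letters of the product map. -/
theorem x0_tD {B : Type} [CommRing B] [Algebra ℂ B] (M : H697.OmM B)
    (z : Wk I n ⊗[ℂ] M.M.V) :
    x0 I n M.M.V (H103.tD (dga I n) M z) = H103.tD (dga I 0) M (x0 I n M.M.V z) +
      ∑ t : Fin n, H103.lw M (y0 I t) (x0 I n M.M.V (eV I n M.M.V t z)) := x0_td M.M z

end Wk

end

end Vale.Agent.P286.H56
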