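import Vale.Agent.P286.H56.Rho
import Vale.Agent.P286.H374.GauH

/-!
# The gauge functors of the Weil algebras and the map `ξ ↦ 0`
-/

namespace Vale.Agent.P286.H56

open CategoryTheory TensorProduct Vale.Agent.P286.Gen Vale.Agent.P286.H295 Vale.Agent.P286.H847
  Vale.Agent.P286.H847.GD Vale.Agent.P286.H847.SGD Vale.Agent.P286.H64 Vale.Agent.P286.H697
  Vale.Agent.P286.H761 Vale.Agent.P286.H374.Gau

noncomputable section

variable {I : Type} [Fintype I] [DecidableEq I] {n : ℕ}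

/-- The homomorphism `ξ ↦ 0` of the Weil algebras. -/
theorem isRs : IsRs (Wk.rs I n) (wq I n) (wq I 0) where
  s := rs_sgA
  th := rs_th
  xi := rs_xi
  P := rs_inP

/-- **`ξ ↦ 0` commutes with the gauge transition maps.** -/
theorem x0_G {B : Type} [CommRing B] [Algebra ℂ B] {M : OmM B} {B' : Type} [CommRing B']
    [Algebra ℂ B'] {M' : OmM B'} (t : M.M.V →ₗ[ℂ] M'.M.V) (U U' : Matrix I I B')
    (z : Wk I n ⊗[ℂ] M.M.V) :
    x0 I n M'.M.V (H374.Gau.G (wq I n) M M' t U U' z) =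
      H374.Gau.G (wq I 0) M M' t U U' (x0 I n M.M.V z) := isRs.G t U U' z

/-- The gauge transition maps and the elements `y_t`. -/
theorem G_y0 {B : Type} [CommRing B] [Algebra ℂ B] {M : OmM B} {B' : Type} [CommRing B']
    [Algebra ℂ B'] {M' : OmM B'} (t : M.M.V →ₗ[ℂ] M'.M.V) {U U' : Matrix I I B'}
    (h : U * U' = 1) (k : ℕ) (z : Wk I 0 ⊗[ℂ] M.M.V) :
    H374.Gau.G (wq I 0) M M' t U U' (H103.lw M (y0 I k) z) =
      H103.lw M' (y0 I k) (H374.Gau.G (wq I 0) M M' t U U' z) := G_inv h (invt_ep _) z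

end

end Vale.Agent.P286.H56
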